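import Vale.Agent.P282A74.Reg
import Vale.Agent.P282A14.Jet
import Vale.Agent.P277Z.Oka.All

/-!
P282, analytic double points: the row RAD from the generic statement.
-/

open Filter Topology IsLocalRing MvPolynomial
open Vale.Agent.P298.H941 Vale.Agent.P277Z

noncomputable section

namespace Vale.Agent.P282A71

/-- generically the equations generate the ideal of the germs vanishing on the variety -/
def GEN : Prop :=
  ∀ (N : ℕ) (I : Ideal (MvPolynomial (Fin N) ℂ)), I.IsPrime → ∃ δ, δ ∉ I ∧ ∀ x ∈ locus I,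
    eval x δ ≠ 0 → ∀ f, AnalyticAt ℂ f x → Oka.Van x (locus I) f →
      Oka.gm x f ∈ Ideal.span {a | ∃ p ∈ I, a = Oka.gm x fun z => eval z p}

theorem ana_eval49 {N : ℕ} (p : MvPolynomial (Fin N) ℂ) (x : Fin N → ℂ) :
    AnalyticAt ℂ (fun z : Fin N → ℂ => eval z p) x :=
  AnalyticOnNhd.eval_mvPolynomial (𝕜 := ℂ) p x (Set.mem_univ x)

theorem pl_gm49 {N : ℕ} (p : MvPolynomial (Fin N) ℂ) :
    pl N p = Oka.gm 0 fun z : Fin N → ℂ => eval z p := by
  obtain ⟨hf, e⟩ := P282A14.pl_eq p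
  rw [e, Oka.gm_zero_eq hf]

theorem in_of_mem49 {N m : ℕ} (s : Fin m → MvPolynomial (Fin N) ℂ) (x : Fin N → ℂ)
    {p : MvPolynomial (Fin N) ℂ} (hp : p ∈ Ideal.span (Set.range s)) :
    Oka.In x (fun i z => eval z (s i)) fun z => eval z p := by
  obtain ⟨c, rfl⟩ := Ideal.mem_span_range_iff_exists_fun.1 hp
  exact ⟨fun i z => eval z (c i), fun i => ana_eval49 _ _, .of_forall fun y => by simp⟩

theorem rad_of (hG : GEN) : RAD := by
  intro N I hI _ f hf hv
  obtain ⟨δ, hδ, hg⟩ := hG N I hI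
  obtain ⟨m, s, hs⟩ := Submodule.fg_iff_exists_fin_generating_family.1
    (IsNoetherian.noetherian I)
  have hs' : Ideal.span (Set.range s) = I := hs
  have hh : ∀ x i, AnalyticAt ℂ (fun z : Fin N → ℂ => eval z (s i)) x := fun x i => ana_eval49 _ _
  obtain ⟨k, r, hr, hin, hev⟩ := Oka.col_all (Fin N → ℂ) (Fin m) 0 (fun i z => eval z (s i)) f
    (hh 0) hf
  have hv' : Oka.Van 0 (locus I) f := eventually_nhdsWithin_iff.1 hv
  have hδv : Oka.Van 0 (Oka.Zs r) fun z => eval z δ := by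
    filter_upwards [hev, hf.eventually_analyticAt, hv'.eventually] with x h1 h2 h3 h4
    by_contra h5
    have h6 : Oka.In x (fun i z => eval z (s i)) f := by
      by_cases hx : x ∈ locus I
      · rw [Oka.in_iff (hh x) h2]
        refine (Ideal.span_le.2 ?_) (hg x hx h5 f h2 h3)
        rintro _ ⟨p, hp, rfl⟩
        exact (Oka.in_iff (hh x) (ana_eval49 p x)).1 (in_of_mem49 s x (hs' ▸ hp))
      · obtain ⟨p, hp, h7⟩ : ∃ p ∈ I, eval x p ≠ 0 := by
          by_contra! h8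
          exact hx h8
        exact Oka.In.of_unit (((in_of_mem49 s x (hs' ▸ hp)).mul h2).congr
          (.of_forall fun y => mul_comm _ _)) (ana_eval49 p x) h7
    exact one_ne_zero ((h1 (fun _ => 1) analyticAt_const
      (h6.congr (.of_forall fun y => (one_mul _).symm))).van.self_of_nhds h4)
  obtain ⟨n, c, hc, e⟩ := Oka.nul_all (Fin N → ℂ) (Fin k) 0 r hr _ (ana_eval49 δ 0) hδv
  have h9 : Oka.In 0 (fun i z => eval z (s i)) fun y => eval y δ ^ n * f y :=
    (Oka.In.sum Finset.univ fun l _ => (hin l).mul (hc l)).congr (by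
      filter_upwards [e] with y hy
      rw [hy, Finset.sum_mul]
      exact Finset.sum_congr rfl fun l _ => (mul_assoc _ _ _).symm)
  rw [Oka.in_iff (hh 0) (((ana_eval49 δ 0).fun_pow n).fun_mul hf),
    Oka.gm_mul ((ana_eval49 δ 0).fun_pow n) hf, Oka.gm_pow (ana_eval49 δ 0), ← pl_gm49,
    Oka.gm_zero_eq hf] at h9
  refine reg_pow P282A14.jet N I hI δ hδ n _ ((Ideal.span_le.2 ?_) h9)
  rintro _ ⟨i, rfl⟩
  have h10 : pl N (s i) ∈ ex I :=
    Ideal.mem_map_of_mem (pl N) (hs' ▸ Ideal.subset_span ⟨i, rfl⟩)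
  rw [pl_gm49] at h10
  exact h10

end Vale.Agent.P282A71
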